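import Crest.Agent.R096.Ce2_537
import Crest.Prelude.Def_DehnFilling

/-!
# Row 212, layer T (topological ⟹ smooth in dimension three): definitions and leaf statements,
outer part (helper1, helper4)

Road: handle straightening `HS k` (`k = 0,1` torus trick + loop theorem + Brown, `k = 2` Dehn lemma +
Brown, `k = 3` Alexander) ⟹ `PLRel` (grid induction) ⟹ `DiffRel` (Whitehead splice, Munkres smoothing of
row 96) ⟹ `Moise` (chart induction).  Definitions only.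
-/

set_option autoImplicit false

open Set Metric Topology
open scoped Manifold ContDiff

namespace Crest.Agent.X212.T

open Crest.Agent.R096.Ce_537

/-- three-space with the sup norm (balls are cubes) -/
abbrev R3 : Type := Fin 3 → ℝ

section
variable {E F : Type*} [NormedAddCommGroup E] [NormedSpace ℝ E]
  [NormedAddCommGroup F] [NormedSpace ℝ F]

/-- `h` is PL near `x` -/
def PLAt (h : E → F) (x : E) : Prop := ∃ r > 0, PLOn h (ball x r)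

/-- `h` is smooth near `x`, with invertible derivative at `x` -/
def SmAt (h : E → F) (x : E) : Prop :=
  ∃ r > 0, ContDiffOn ℝ ∞ h (ball x r) ∧ ∃ A : E ≃L[ℝ] F, HasFDerivAt h (A : E →L[ℝ] F) x

/-- continuous and injective on `U` -/
def Emb {X Y : Type*} [TopologicalSpace X] [TopologicalSpace Y] (h : X → Y) (U : Set X) : Prop :=
  ContinuousOn h U ∧ InjOn h U

end

/-! ## Brown -/

/-- **generalised Schoenflies theorem**: an embedding of a neighbourhood of the boundary of the cube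
extends from the boundary of the cube over the cube. -/
def Brown : Prop :=
  ∀ (g : R3 → R3) (δ : ℝ), 0 < δ → δ < 1 → Emb g {x | 1 - δ < ‖x‖ ∧ ‖x‖ < 1 + δ} →
    ∃ Φ : R3 → R3, Emb Φ (closedBall 0 1) ∧ EqOn Φ g (sphere 0 1)

/-! ## handles -/

/-- the core `[-1,1]^k × 0` of the handle of index `k` -/
def core (k : ℕ) : Set R3 :=
  {x | ∀ i : Fin 3, (i.1 < k → |x i| ≤ 1) ∧ (k ≤ i.1 → x i = 0)}

/-- the attaching region `∂[-1,1]^k × [-1,1]^(3-k)` -/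
def att (k : ℕ) : Set R3 := {x | ‖x‖ ≤ 1 ∧ ∃ i : Fin 3, i.1 < k ∧ |x i| = 1}

/-- **PL handle straightening** -/
def HS (k : ℕ) : Prop :=
  ∀ h : R3 → R3, Emb h (ball 0 2) → (∀ x ∈ att k, PLAt h x) →
    ∃ H : R3 ≃ₜ R3, (∃ r < 1, ∀ x, r ≤ ‖x‖ → H x = x) ∧ ∀ x ∈ core k, PLAt (h ∘ H) x

/-- **the end of the torus trick**: a bounded homeomorphism which is the identity near and outside
`∂[-1,1]^k × ℝ^(3-k)` agrees near the core with a homeomorphism with small support. -/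
def TT : Prop :=
  ∀ (k : ℕ) (G : R3 ≃ₜ R3) (M δ ε : ℝ), 0 < δ → δ < 1 → 0 < ε → (∀ x, ‖G x - x‖ ≤ M) →
    (∀ x : R3, (∃ i : Fin 3, i.1 < k ∧ 1 - δ ≤ |x i|) → G x = x) →
    ∃ H : R3 ≃ₜ R3,
      (∀ x : R3, (∃ i : Fin 3, (i.1 < k ∧ 1 - δ ≤ |x i|) ∨ (k ≤ i.1 ∧ 2 * ε ≤ |x i|)) → H x = x) ∧
      ∀ x : R3, (∀ i : Fin 3, (i.1 < k → |x i| ≤ 1) ∧ (k ≤ i.1 → |x i| ≤ ε ∧ |G x i| ≤ ε)) →
        H x = G x

/-- the points one of whose coordinates `i ≥ k` is `η`-near an integer: the preimage of the punctured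
torus `ℝ^k × T^(3-k)_0` -/
def walls (k : ℕ) (η : ℝ) : Set R3 := {x | ∃ i : Fin 3, k ≤ i.1 ∧ ∃ n : ℤ, |x i - n| < η}

/-- translation by `n` in direction `i` -/
def tr (i : Fin 3) (n : ℤ) (x : R3) : R3 := x + Pi.single i (n : ℝ)

/-- **immersion of the punctured torus** (`k = 0, 1`); PL if `k = 1`. -/
def Imm (k : ℕ) : Prop :=
  ∃ (η : ℝ) (a : R3 → R3), 0 < η ∧ η < 1 / 8 ∧
    (∀ (i : Fin 3) (n : ℤ) (x : R3), k ≤ i.1 → a (tr i n x) = a x) ∧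
    (∀ (x : R3) (i : Fin 3), i.1 < k → a x i = x i) ∧
    (∀ (x : R3) (i : Fin 3), x ∈ walls k η → k ≤ i.1 → |a x i| < 1) ∧
    (∀ x ∈ walls k η, ∃ r > 0, Emb a (ball x r)) ∧
    (0 < k → ∀ x ∈ walls k η, PLAt a x) ∧
    ∀ x : R3, (∀ i : Fin 3, k ≤ i.1 → |x i| < η) → a x = x

/-! ## relative approximation in a chart -/

/-- **PL, relative** -/
def PLRel : Prop :=
  ∀ (h : R3 → R3) (U A C W : Set R3) (ε : ℝ), IsOpen U → Emb h U → IsCompact A → A ⊆ U →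
    IsCompact C → IsOpen W → C ⊆ W → W ⊆ U → (∀ x ∈ A, PLAt h x) → 0 < ε →
    ∃ H : R3 ≃ₜ R3, (∃ K, IsCompact K ∧ K ⊆ W ∧ Disjoint K A ∧ ∀ x, x ∉ K → H x = x) ∧
      (∀ x, ‖H x - x‖ ≤ ε) ∧ ∀ x ∈ C, PLAt (h ∘ H) x

/-- **Whitehead splice**: an embedding which is smooth near the compact set `Z` is made PL near `Z`,
staying Lipschitz-close to the smooth map. -/
def WH : Prop :=
  ∀ (h : R3 → R3) (U Z W : Set R3) (ε : ℝ), IsOpen U → Emb h U → IsCompact Z → IsOpen W → Z ⊆ W →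
    W ⊆ U → (∀ x ∈ W, SmAt h x) → 0 < ε →
    ∃ H : R3 ≃ₜ R3, (∃ K, IsCompact K ∧ K ⊆ W ∧ ∀ x, x ∉ K → H x = x) ∧
      (∀ x, ‖H x - x‖ ≤ ε) ∧ (∀ x ∈ Z, PLAt (h ∘ H) x) ∧
      ∀ x ∈ U, ∀ y ∈ U, ‖(h (H x) - h x) - (h (H y) - h y)‖ ≤ ε * ‖x - y‖

/-- `h` is Lipschitz near `x` and near `x` its derivative stays a.e. in a compact convex set of
invertible linear maps (both orientations allowed) -/
def Moll (h : R3 → R3) (x : R3) : Prop :=
  ∃ r > 0, ∃ K : Set (R3 →L[ℝ] R3), Convex ℝ K ∧ IsCompact K ∧ (∀ A ∈ K, A.det ≠ 0) ∧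
    (∃ L : NNReal, LipschitzOnWith L h (ball x r)) ∧
    ∀ᵐ y ∂(MeasureTheory.volume : MeasureTheory.Measure R3), y ∈ ball x r → fderiv ℝ h y ∈ K

/-- **Munkres, relative** (from `StageEdge`, `StageVertex` of row 96): PL or `Moll` ⟹ `Moll`. -/
def MU : Prop :=
  ∀ (h : R3 → R3) (U A C W : Set R3) (ε : ℝ), IsOpen U → Emb h U → IsCompact A → A ⊆ U →
    IsCompact C → IsOpen W → C ⊆ W → W ⊆ U → (∀ x ∈ A, Moll h x) → (∀ x ∈ C, PLAt h x) → 0 < ε →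
    ∃ H : R3 ≃ₜ R3, (∃ K, IsCompact K ∧ K ⊆ W ∧ Disjoint K A ∧ ∀ x, x ∉ K → H x = x) ∧
      (∀ x, ‖H x - x‖ ≤ ε) ∧ ∀ x ∈ C, Moll (h ∘ H) x

/-- **mollification, relative**: `Moll` ⟹ smooth. -/
def MO : Prop :=
  ∀ (h : R3 → R3) (U A C W : Set R3) (ε : ℝ), IsOpen U → Emb h U → IsCompact A → A ⊆ U →
    IsCompact C → IsOpen W → C ⊆ W → W ⊆ U → (∀ x ∈ A, SmAt h x) → (∀ x ∈ C, Moll h x) → 0 < ε →
    ∃ H : R3 ≃ₜ R3, (∃ K, IsCompact K ∧ K ⊆ W ∧ ∀ x, x ∉ K → H x = x) ∧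
      (∀ x, ‖H x - x‖ ≤ ε) ∧ ∀ x ∈ A ∪ C, SmAt (h ∘ H) x

/-- **smooth, relative** -/
def DiffRel : Prop :=
  ∀ (h : R3 → R3) (U A C W : Set R3) (ε : ℝ), IsOpen U → Emb h U → IsCompact A → A ⊆ U →
    IsCompact C → IsOpen W → C ⊆ W → W ⊆ U → (∀ x ∈ A, SmAt h x) → 0 < ε →
    ∃ H : R3 ≃ₜ R3, (∃ K, IsCompact K ∧ K ⊆ W ∧ ∀ x, x ∉ K → H x = x) ∧
      (∀ x, ‖H x - x‖ ≤ ε) ∧ ∀ x ∈ A ∪ C, SmAt (h ∘ H) x

/-! ## manifolds -/

/-- **Moise-Munkres**: an open embedding of smooth three-manifolds (any boundaryless models) is made a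
local diffeomorphism near a compact set by a homeomorphism of the source with compact support which is
homotopic to the identity. -/
def Moise : Prop :=
  ∀ (E H E' H' M N : Type) [NormedAddCommGroup E] [NormedSpace ℝ E] [FiniteDimensional ℝ E]
    [TopologicalSpace H] (I : ModelWithCorners ℝ E H) [I.Boundaryless]
    [NormedAddCommGroup E'] [NormedSpace ℝ E'] [FiniteDimensional ℝ E']
    [TopologicalSpace H'] (I' : ModelWithCorners ℝ E' H') [I'.Boundaryless]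
    [TopologicalSpace M] [T2Space M] [ChartedSpace H M] [IsManifold I ∞ M]
    [TopologicalSpace N] [ChartedSpace H' N] [IsManifold I' ∞ N],
    Module.finrank ℝ E = 3 → Module.finrank ℝ E' = 3 →
    ∀ (h : M → N) (C W : Set M), IsOpenEmbedding h → IsCompact C → IsOpen W → C ⊆ W →
      ∃ Φ : M ≃ₜ M, (∃ K, IsCompact K ∧ K ⊆ W ∧ (∀ x, x ∉ K → Φ x = x) ∧
          (ContinuousMap.id M).HomotopicRel (Φ : C(M, M)) Kᶜ) ∧
        ∀ x ∈ C, IsLocalDiffeomorphAt I I' ∞ (h ∘ Φ) x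

end Crest.Agent.X212.T
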